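import Vale.Agent.P250.Sink.Final

/-!
P250: complete Kaehler manifolds with nonpositive bisectional curvature and holomorphic sectional
curvature at most a negative constant, carrying a circle of holomorphic isometries with a fixed
point whose isotropy weights have one strict sign, are biholomorphic to bounded domains.
-/

open scoped Manifold ContDiff

noncomputable section

namespace Vale.Agent.Results.P250.CircleSink

open Vale.Agent.P253.Circle (Cn Metric IsKaehler Complete CircleSymmetry Sink)
open Vale.Agent.P250.Sink (NonposBisect HolBound)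

theorem result :
    ∀ (n : ℕ) (M : Type) [TopologicalSpace M] [T2Space M] [ConnectedSpace M]
      [ChartedSpace (Cn n) M] [IsManifold 𝓘(ℂ, Cn n) ω M] (G : Metric (Cn n) M) (ρ : ℝ → M → M)
      (o : M) (a : ℝ),
      0 < a → IsKaehler G → NonposBisect G → HolBound G a → Complete G → CircleSymmetry G ρ →
        Sink n (Cn n) ρ o →
        ∃ (Ω : Set (Cn n)) (f : M → Cn n) (g : Cn n → M),
          IsOpen Ω ∧ IsConnected Ω ∧ Bornology.IsBounded Ω ∧ Set.range f = Ω ∧
          ContMDiff 𝓘(ℂ, Cn n) 𝓘(ℂ, Cn n) ∞ f ∧ ContMDiffOn 𝓘(ℂ, Cn n) 𝓘(ℂ, Cn n) ∞ g Ω ∧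
          ∀ x, g (f x) = x :=
  fun _ _ _ _ _ _ _ _ _ _ _ ha hG hN hH hC hρ ho =>
    Vale.Agent.P250.Sink.bounded ha hG hN hH hC hρ ho

end Vale.Agent.Results.P250.CircleSink
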