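import Vale.Agent.P250.Disproof.Bridge
import Vale.Agent.P250.Disproof.Pinched

/-!
# P250: a pinched, complete, contractible Kähler threefold that is no bounded domain
-/

noncomputable section

namespace Vale.Agent.Results.P250.Disproof

open Vale.Agent.P250.Neg

theorem result :
    ∃ (D : Set C3) (G : C3 → C3 → C3 → ℝ) (Γ : C3 → C3 → C3 → C3) (a b : ℝ),
      IsOpen D ∧ D.Nonempty ∧ ContractibleSpace D ∧ HermitianMetric G D ∧ LeviCivita G Γ D ∧
      JParallel Γ D ∧ LengthComplete G D ∧ GeodesicsForever Γ D ∧ 0 < a ∧ a ≤ b ∧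
      SectBounds G Γ D a b ∧ ¬ BiholoToBounded D :=
  Vale.Agent.P250.Disproof.public_answer_of_pinch Vale.Agent.P250.Disproof.pinched

end Vale.Agent.Results.P250.Disproof
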